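import Crest.Agent.N325.On.Flp

/-!
# Row 325 (helper95): the open case, definitions and programs
-/

set_option autoImplicit false
open Finset

namespace Crest.Agent.N325.On

open Crest.Agent.N325.Dm

/-- a backward walk from a class to a root (the list of its classes) -/
inductive Wlk (G : Bg) : ℕ → List ℕ → Prop
  | root {r : ℕ} : G.mu r = none → Wlk G r [r]
  | cons {x y : ℕ} {W : List ℕ} : G.St x y → Wlk G y W → Wlk G x (x :: W)

/-- total weight of a list of classes -/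
def wsum (wt : ℕ → ℕ) (L : List ℕ) : ℕ := (L.map wt).sum

/-- restriction to the marked inner vertices (`pt a` = the partner class of `a`) -/
def rs (G : Bg) (mk : Arr Bool) (pt : ℕ → ℕ) : Bg :=
  { G with ok := fun a e => G.ok a e && (mk.get a || decide (G.hd a e = pt a)) }

/-- mark the mate -/
def mk1 (G : Bg) (c : ℕ) (s : Arr Bool) : Arr Bool := if G.has c then s.set (G.mt c) true else s

/-- the top of the stack and the path to it -/
def fin (s ν : ℕ) (x : Ds) : R (ℕ × List (ℕ × ℕ)) := match x.1 with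
  | [] => pure (s, [])
  | f :: _ => chase x.2.2.2.1 s f.1 ν >>= fun l => pure (f.1, l)

/-- search in `G'` among the `G`-mates of the classes `Z` -/
def rsr (G G' : Bg) (pt : ℕ → ℕ) (Z : List ℕ) (v0 : Arr Bool) (s : ℕ) :
    R (ℕ × List (ℕ × ℕ)) :=
  foldP (mk1 G) Z (Arr.cst false) >>= fun mk => lenL Z >>= fun n => nat (12 * n + 4) >>= fun ν =>
    dfs (rs G' mk pt) v0 s ν >>= fun x => fin s ν x

/-- take one more class while the weight is small -/
def pf1 (wt : ℕ → ℕ) (nw c : ℕ) (s : List ℕ × ℕ) : R (List ℕ × ℕ) :=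
  if s.2 < nw then nat (s.2 + wt c) >>= fun w => pure (c :: s.1, w) else pure s

/-- the oldest classes of weight at least `nw` -/
def pref (wt : ℕ → ℕ) (nw : ℕ) (V : List ℕ) : R (List ℕ × ℕ) :=
  revL V >>= fun U => foldL (pf1 wt nw) U ([], 0)

/-- **the open case**: two paths to roots.  `wk (X, D, s)` = walks from the classes `X`, one of
them avoids any given class of `D` -/
def opn {σ : Type} (G : Bg) (pt wt : ℕ → ℕ)
    (wk : List ℕ × List ℕ × σ → R (List (List ℕ) × σ)) (nw u u2 : ℕ) (s : σ) :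
    R ((ℕ × List (ℕ × ℕ)) × (ℕ × List (ℕ × ℕ)) × σ) :=
  call wk ([u], [], s) >>= fun w1 => flatMapP (fun x => x) w1.1 >>= fun Z1 =>
  rsr G G pt Z1 (Arr.cst false) u >>= fun p1 => ovp p1.1 p1.2 >>= fun ov =>
  nat (4 * nw) >>= fun ν => dfs (flip G u ov) ((Arr.cst false).set u true) u2 ν >>= fun x =>
  pref wt nw x.2.1 >>= fun X => mapP Prod.fst p1.2 >>= fun D =>
  (if X.2 < nw then pure ([], w1.2) else call wk (X.1, p1.1 :: D, w1.2)) >>= fun w2 =>
  flatMapP (fun x => x) (X.1 :: (p1.1 :: D) :: w2.1) >>= fun Z2 =>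
  rsr G (flip G u ov) pt Z2 ((Arr.cst false).set u true) u2 >>= fun p2 => pure (p1, p2, w2.2)

/-- the specification of the walks: `I s t` = state after the time `t`; `L` walks of weight at most
`bud`, time at most `c` -/
def WkSpec {σ : Type} (g : Gl) (G : Bg) (Cl : ℕ → Prop) (wt : ℕ → ℕ)
    (wk : List ℕ × List ℕ × σ → R (List (List ℕ) × σ)) (nw L bud md : ℕ)
    (I : ℕ → σ → ℕ → Prop) : Prop :=
  ∀ (i : ℕ) (X D : List ℕ) (s : σ) (t : ℕ), i < 2 → I i s t → (∀ x ∈ X, Cl x) → X.Nodup →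
    D.length ≤ md → wsum wt X ≤ md →
    ((∃ u, X = [u] ∧ D = []) ∨ nw ≤ wsum wt X) →
    Sp g (wk (X, D, s)) fun r t' => I (i + 1) r.2 (t + t') ∧ r.1.length ≤ L ∧ r.1 ≠ [] ∧
      (∀ W ∈ r.1, (∃ x ∈ X, Wlk G x W) ∧ wsum wt W ≤ bud) ∧ ∀ d ∈ D, ∃ W ∈ r.1, d ∉ W

end Crest.Agent.N325.On
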