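import Crest.Agent.N325.On.Srch

/-!
# Row 325 (helper95): the open case, specification
-/

set_option autoImplicit false
open Finset

namespace Crest.Agent.N325.On

open Crest.Agent.N325.Dm

variable {g : Gl} {G : Bg} {Cl : ℕ → Prop} {u u2 r : ℕ} {l : List (ℕ × ℕ)} {ov : Arr ℕ}
  {mk : Arr Bool} {pt wt : ℕ → ℕ} {V : List ℕ}

theorem v0_iff {c : ℕ} : ((Arr.cst false).set u true).get c = true ↔ c = u := by
  rw [Arr.get_set]; split_ifs with k <;> simp [k]

theorem Wlk.cl (hG : G.WF Cl) {x : ℕ} {W : List ℕ} (h : Wlk G x W) (hx : Cl x) :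
    ∀ c ∈ W, Cl c := by
  induction h with
  | root => simpa using hx
  | cons a _ ih =>
    intro c hc
    rcases List.mem_cons.1 hc with rfl | hc
    exacts [hx, ih (hG.cl _ _ hx a) c hc]

/-- the first search cannot close -/
theorem wlk_cld {x : ℕ} {W : List ℕ} (h : Wlk G x W) (c : Cld (rs G mk pt) Cl (Arr.cst false) u V)
    (hx : x ∈ V) (hm : ∀ z ∈ W, ∀ a, G.mu z = some a → mk.get a = true) : False := by
  induction h with
  | root e => have := c.has _ hx; rw [(Bg.has_false (G := rs G mk pt)).2 e] at this; cases this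
  | @cons x y W a _ ih =>
    obtain ⟨a, i, j⟩ := a
    exact ih ((c.st x hx y ⟨a, i, rs_nb.2 ⟨j, .inl (hm x List.mem_cons_self a i)⟩⟩).resolve_right
      (by simp)) fun z k => hm z (List.mem_cons_of_mem _ k)

/-- the base of a closed search -/
theorem closing (h : Flp G Cl u r l ov)
    (hm : ∀ c ∈ nds r l, ∀ a, G.mu c = some a → mk.get a = true)
    (c : Cld (rs (flip G u ov) mk pt) Cl ((Arr.cst false).set u true) u2 V) :
    ∃ d ∈ nds r l, (d ∈ V ∨ d = u) ∧ ∀ x, x ∈ V ∨ x = u → x ≠ d →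
      ∃ y ∈ V, ∃ a, (flip G u ov).mu y = some a ∧ G.mu x = some a := by
  obtain ⟨d, d1, d2, d3⟩ := ex_last h.pth (O := fun x => x ∈ V ∨ x = u) (.inr rfl)
    fun y x k o => by
      obtain ⟨⟨a, i, -⟩, j, -⟩ := lk_st h.pth h.nd k
      have m := List.mem_cons_of_mem r k.mem.2
      exact (c.st y (o.resolve_right j) x ⟨a, (h.mu_lk k).trans i, rs_nb.2
        ⟨h.wf.nb x a (pth_cl h.wf h.hu h.pth x m) i, .inl (hm x m a i)⟩⟩).imp_right v0_iff.1
  refine ⟨d, d1, d2, fun x o ne => ?_⟩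
  by_cases e : x ∈ nds r l
  · obtain ⟨y, i, j⟩ := d3 x e o ne
    obtain ⟨⟨a, k, -⟩, n, -⟩ := lk_st h.pth h.nd j
    exact ⟨y, i.resolve_right n, a, (h.mu_lk j).trans k, k⟩
  · have m := o.resolve_right fun z => e (z ▸ pth_mem h.pth)
    obtain ⟨a, i⟩ := Bg.has_iff.1 (c.has x m)
    exact ⟨x, m, a, i, (h.mu_off e).symm.trans i⟩

/-- every walk from a closed search meets its base -/
theorem wlk_base {d : ℕ}
    (c : Cld (rs (flip G u ov) mk pt) Cl ((Arr.cst false).set u true) u2 V)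
    (hd : ∀ x, x ∈ V ∨ x = u → x ≠ d →
      ∃ y ∈ V, ∃ a, (flip G u ov).mu y = some a ∧ G.mu x = some a)
    {x : ℕ} {W : List ℕ} (h : Wlk G x W) (hx : x ∈ V ∨ x = u)
    (hm : ∀ z ∈ W, ∀ a, G.mu z = some a → mk.get a = true) : d ∈ W := by
  induction h with
  | @root x e =>
    by_contra k
    obtain ⟨-, -, a, -, i⟩ := hd x hx fun z => k (by simp [z])
    rw [e] at i; cases i
  | @cons x y W a _ ih =>
    by_cases k : x = d
    · simp [k]
    obtain ⟨z, m, b, i, j⟩ := hd x hx k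
    obtain ⟨a, i', j'⟩ := a
    obtain rfl : a = b := Option.some.inj (i'.symm.trans j)
    exact List.mem_cons_of_mem _ (ih ((c.st z m y ⟨a, i, rs_nb.2
      ⟨j', .inl (hm x List.mem_cons_self a i')⟩⟩).imp_right v0_iff.1)
      fun z k => hm z (List.mem_cons_of_mem _ k))

/-- a closed unrestricted search gives a closed region -/
theorem closed_of (h : Flp G Cl u r l ov)
    (c : Cld (flip G u ov) Cl ((Arr.cst false).set u true) u2 V) :
    ∃ A C d, G.Closed Cl u u2 A C d ∧ G.vol A ≤ (flip G u ov).cvol V := by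
  have c' : Cld (rs (flip G u ov) (Arr.cst true) id) Cl ((Arr.cst false).set u true) u2 V :=
    ⟨c.nd, c.mem, c.cl, c.dis, c.has, fun y m z ⟨a, i, j⟩ => c.st y m z ⟨a, i, (rs_nb.1 j).1⟩⟩
  obtain ⟨d, -, d2, d3⟩ := closing h (fun _ _ _ _ => rfl) c'
  have nu : u ∉ V := fun k => by have := c.dis u k; rw [v0_iff.2 rfl] at this; cases this
  have inj : Set.InjOn (flip G u ov).mt V.toFinset := fun x i y j e =>
    have i := List.mem_toFinset.1 i
    have j := List.mem_toFinset.1 j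
    h.wf'.inj x y _ (c.cl x i) (c.cl y j) (Bg.mu_mt (c.has x i)) (e ▸ Bg.mu_mt (c.has y j))
  have mem : ∀ x, x ∈ insert u V.toFinset ↔ x ∈ V ∨ x = u := fun x => by simp [or_comm]
  refine ⟨V.toFinset.image (flip G u ov).mt, insert u V.toFinset, d,
    ⟨mem_insert_self .., (mem _).2 (.inl c.mem), fun x k => ?_, fun a k x m => ?_, ?_,
      (mem d).2 d2, fun x k ne => ?_⟩, ?_⟩
  · rcases (mem x).1 k with k | rfl
    exacts [c.cl x k, h.hu]
  · obtain ⟨y, i, rfl⟩ := mem_image.1 k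
    have i := List.mem_toFinset.1 i
    exact (mem x).2 ((c.st y i x ⟨_, Bg.mu_mt (c.has y i), m⟩).imp_right v0_iff.1)
  · rw [card_image_of_injOn inj, card_insert_of_notMem (by simpa using nu)]
  · obtain ⟨y, i, a, j, m⟩ := d3 x ((mem x).1 k) ne
    exact ⟨a, mem_image.2 ⟨y, List.mem_toFinset.2 i, Bg.mt_eq j⟩, m⟩
  · rw [Bg.vol, sum_image inj, Bg.cvol, ← List.sum_toFinset _ c.nd]
    exact sum_le_sum fun x i => by
      rw [Bg.cadj_eq (Bg.mu_mt (c.has x (List.mem_toFinset.1 i)))]; rfl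

theorem tree_suffix {s : ℕ} {par : ℕ → ℕ × ℕ} {X : List ℕ} (ht : G.Tree s par V) (k : X <:+ V) :
    G.Tree s par X := by
  obtain ⟨A, rfl⟩ := k
  induction A with
  | nil => exact ht
  | cons _ _ ih => exact ih ht.2

theorem tree_sub {s : ℕ} {par : ℕ → ℕ × ℕ} {X : List ℕ} {v0 : Arr Bool} (ht : G.Tree s par X)
    (c : Cld (rs G mk pt) Cl v0 s V) (h0 : ∀ x ∈ X, v0.get x = false)
    (hm : ∀ z ∈ X, ∀ a, G.mu z = some a → mk.get a = true) : ∀ x ∈ X, x ∈ V := by
  induction X with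
  | nil => intro _ h; cases h
  | cons z X ih =>
    have ih := ih ht.2 (fun x k => h0 x (List.mem_cons_of_mem _ k))
      fun x k => hm x (List.mem_cons_of_mem _ k)
    intro x hx
    rcases List.mem_cons.1 hx with rfl | hx
    · rcases ht.1 with ⟨rfl, -⟩ | ⟨i, j⟩
      · exact c.mem
      · obtain ⟨a, j, k⟩ := j.st
        exact (c.st _ (ih _ i) x ⟨a, j, rs_nb.2 ⟨k, .inl (hm _ (List.mem_cons_of_mem _ i) a j)⟩⟩
          ).resolve_right (by simp [h0 x List.mem_cons_self])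
    · exact ih x hx

theorem wsum_le {A B : List ℕ} (nd : A.Nodup) (s : ∀ x ∈ A, x ∈ B) : wsum wt A ≤ wsum wt B := by
  obtain ⟨C, p, q⟩ := nd.subperm s
  rw [wsum, ← (p.map wt).sum_eq]
  exact (q.map wt).sum_le_sum fun _ _ => Nat.zero_le _

theorem length_le_wsum {A : List ℕ} (h : ∀ x ∈ A, 1 ≤ wt x) : A.length ≤ wsum wt A := by
  induction A with
  | nil => exact le_rfl
  | cons x A ih =>
    have := h x List.mem_cons_self
    have := ih fun y k => h y (List.mem_cons_of_mem _ k)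
    simp only [wsum, List.map_cons, List.sum_cons, List.length_cons] at *
    omega

theorem wsum_flat {F : List (List ℕ)} {b : ℕ} (h : ∀ W ∈ F, wsum wt W ≤ b) :
    wsum wt (F.flatMap fun x => x) ≤ F.length * b := by
  induction F with
  | nil => simp [wsum]
  | cons W F ih =>
    have := h W List.mem_cons_self
    have := ih fun y k => h y (List.mem_cons_of_mem _ k)
    simp only [wsum, List.flatMap_cons, List.map_append, List.sum_append, List.length_cons,
      add_mul] at *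
    omega

theorem sp_while_inv {α : Type} {c : α → Bool} {f : α → α} {I : α → Prop}
    (h : ∀ a, I a → I (f a)) (n : ℕ) {a : α} (h0 : I a) :
    Sp g (whileF c (fun x => pure (f x)) n a) fun r _ => I r := by
  induction n generalizing a with
  | zero => exact ⟨Nat.zero_le _, h0⟩
  | succ n ih =>
    refine ⟨Nat.zero_le _, ?_⟩
    split_ifs
    · exact ih (h a h0)
    · exact h0

theorem sp_dfs_len (G : Bg) (v0 : Arr Bool) (s ν : ℕ) :
    Sp g (dfs G v0 s ν) fun x _ => x.2.1.length ≤ x.2.2.2.2 + 1 := by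
  refine sp_while_inv (I := fun x : Ds => x.2.1.length ≤ x.2.2.2.2 + 1) (fun x k => ?_) _ le_rfl
  unfold step
  split
  · exact k
  · split
    · dsimp only; omega
    · split_ifs
      · simp only [List.length_cons]; omega
      · dsimp only; omega

/-- the output of the open case -/
structure Two (G : Bg) (Cl : ℕ → Prop) (wt : ℕ → ℕ) (Wb u u2 : ℕ) (p1 p2 : ℕ × List (ℕ × ℕ))
    (ov : Arr ℕ) : Prop where
  flp : Flp G Cl u p1.1 p1.2 ov
  rt1 : G.mu p1.1 = none
  pth : (flip G u ov).Pth u2 p2.1 p2.2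
  nd : (nds p2.1 p2.2).Nodup
  rt2 : (flip G u ov).mu p2.1 = none
  off : u ∉ nds p2.1 p2.2
  w1 : wsum wt (nds p1.1 p1.2) ≤ Wb
  w2 : wsum wt (nds p2.1 p2.2) ≤ Wb

/-- **the open case** -/
theorem sp_opn {σ : Type} {wk : List ℕ × List ℕ × σ → R (List (List ℕ) × σ)}
    {nw L bud md wm Wb : ℕ} {I : ℕ → σ → ℕ → Prop} {s : σ} (hG : G.WF Cl)
    (hd : ∀ a, (G.adj a).length ≤ 3) (hp : ∀ c a, Cl c → G.mu c = some a → c = pt a)
    (hw : ∀ c, Cl c → 1 ≤ wt c ∧ wt c ≤ wm) (hk : WkSpec g G Cl wt wk nw L bud md I)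
    (hu : Cl u) (hu2 : Cl u2) (ne : u2 ≠ u)
    (hno : ∀ A C d, G.Closed Cl u u2 A C d → 4 * nw + 1 < G.vol A)
    (hW : nw + 3 * wm + 2 * (L * bud) ≤ Wb) (hmd : Wb ≤ md) (hX : 12 * Wb + 4 ≤ g.X)
    (h0 : I 0 s 0) :
    Sp g (opn G pt wt wk nw u u2 s) fun r t => (∃ ov, Two G Cl wt Wb u u2 r.1 r.2.1 ov) ∧
      ∃ i ≤ 2, ∃ t1, I i r.2.2 t1 ∧ t ≤ t1 + 60 * (Wb + L + 1) := by
  have wu := hw u hu
  have len : ∀ A : List ℕ, (∀ x ∈ A, Cl x) → A.length ≤ wsum wt A := fun A k =>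
    length_le_wsum fun x i => (hw x (k x i)).1
  rw [opn, sp_bind, sp_call]
  refine (hk 0 [u] [] s 0 two_pos h0 (by simpa using hu) (by simp) (by simp)
    (by simp [wsum]; omega) (.inl ⟨u, rfl, rfl⟩)).mono ?_
  rintro w1 t1 ⟨i1, l1, n1, a1, -⟩
  refine (sp_flatMapP _ _).bind ?_
  rintro _ t2 ⟨rfl, b2⟩
  have c1 : ∀ z ∈ w1.1.flatMap fun x => x, Cl z := fun z k => by
    obtain ⟨W, i, j⟩ := List.mem_flatMap.1 k
    obtain ⟨x, m, q⟩ := (a1 W i).1
    exact q.cl hG (List.mem_singleton.1 m ▸ hu) z j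
  have s1 := (wsum_flat fun W k => (a1 W k).2).trans (Nat.mul_le_mul_right bud l1)
  have e1 := len _ c1
  refine (sp_rsr (G := G) hG hd (fun c a i j => .inr (hp c a i j)) hu rfl (by omega)).bind ?_
  rintro p1 t3 ⟨b3, ⟨pa, pb, pc, -, pd⟩ | ⟨mk, V, m, c⟩⟩
  swap
  · obtain ⟨W, k⟩ := List.exists_mem_of_ne_nil _ n1
    obtain ⟨x, i, q⟩ := (a1 W k).1
    exact (wlk_cld q c (List.mem_singleton.1 i ▸ c.mem) fun z j a e =>
      (m a).2 ⟨z, List.mem_flatMap.2 ⟨W, k, j⟩, e⟩).elim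
  have cp := pth_cl hG hu pa
  have s2 : wsum wt (nds p1.1 p1.2) ≤ wm + L * bud := by
    have := wsum_le (wt := wt) (B := w1.1.flatMap fun x => x) (List.nodup_cons.1 pb).2 fun x k => by
      obtain ⟨a, i, z, j, e⟩ := pd x k
      exact hG.inj _ _ a (cp x (List.mem_cons_of_mem _ k)) (c1 z j) i e ▸ j
    have := (hw _ (cp _ List.mem_cons_self)).2
    simp only [wsum, nds, List.map_cons, List.sum_cons] at *
    omega
  have e2 := len _ cp
  have e2' : (nds p1.1 p1.2).length = p1.2.length + 1 := by simp [nds]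
  refine (sp_ovp pb).bind fun ov t4 ⟨ho, b4⟩ => ?_
  have F : Flp G Cl u p1.1 p1.2 ov := ⟨hG, hu, pa, pb, ho⟩
  have v2 : ((Arr.cst false).set u true).get u2 = false := by
    rw [Arr.get_set_ne _ ne]; rfl
  rw [sp_bind, sp_nat]
  refine ⟨by omega, ((sp_dfs F.wf' hu2 v2).and (sp_dfs_len _ _ _ _)).bind
    fun x t5 ⟨⟨h, ta, tb, tc⟩, lV⟩ => ?_⟩
  obtain ⟨U, -, -, tv, tz⟩ := h.stk.all
  refine (sp_pref (wm := wm) (fun c k => (hw c (h.cl c k)).2) (by omega)).bind
    fun X t6 ⟨x1, x2, x3, x4, b6⟩ => (sp_mapP _ _).bind ?_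
  rintro _ t7 ⟨rfl, b7⟩
  have cX : ∀ z ∈ X.1, Cl z := fun z k => h.cl z (x1.subset k)
  have e3 := len _ cX
  refine Sp.bind (Q := fun w2 t => w2.1.length ≤ L ∧
    (∀ W ∈ w2.1, (∃ x ∈ X.1, Wlk G x W) ∧ wsum wt W ≤ bud) ∧
    (nw ≤ X.2 → ∀ d ∈ nds p1.1 p1.2, ∃ W ∈ w2.1, d ∉ W) ∧
    ∃ i ≤ 2, ∃ t', I i w2.2 (t1 + t') ∧ t ≤ t' + 1) ?_ ?_
  · split_ifs with k
    · exact ⟨by simp, by simp, fun z => by omega, 1, by omega, 0, by simpa using i1, by omega⟩
    · exact sp_call.2 ((hk 1 X.1 (nds p1.1 p1.2) w1.2 t1 one_lt_two (by simpa using i1) cX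
        (h.nd.sublist x1.sublist) (by omega) (by omega) (.inr (by omega))).mono
        fun r t k => ⟨k.2.1, k.2.2.2.1, fun _ => k.2.2.2.2, 2, le_rfl, t, k.1, by omega⟩)
  rintro w2 t8 ⟨l2, a2, av, i, hi, t', i2, b8⟩
  refine (sp_flatMapP _ _).bind ?_
  rintro Z t9 ⟨eZ, b9⟩
  rw [← eZ] at b9
  have mZ : ∀ z, z ∈ Z ↔ z ∈ X.1 ∨ z ∈ nds p1.1 p1.2 ∨ z ∈ w2.1.flatMap fun x => x := fun z => by
    rw [eZ, List.flatMap_cons, List.flatMap_cons, List.mem_append, List.mem_append]; rfl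
  have c2 : ∀ z ∈ Z, Cl z := fun z k => by
    rcases (mZ z).1 k with k | k | k
    · exact cX z k
    · exact cp z k
    · obtain ⟨W, i, j⟩ := List.mem_flatMap.1 k
      obtain ⟨x, m, q⟩ := (a2 W i).1
      exact q.cl hG (cX x m) z j
  have s3 : wsum wt Z ≤ nw + 2 * wm + 2 * (L * bud) := by
    have := (wsum_flat fun W k => (a2 W k).2).trans (Nat.mul_le_mul_right bud l2)
    rw [eZ, List.flatMap_cons, List.flatMap_cons]
    simp only [wsum, nds, List.map_append, List.sum_append] at *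
    omega
  have e4 := len _ c2
  have src : ∀ c a, Cl c → (flip G u ov).mu c = some a →
      (c ∈ nds p1.1 p1.2 ∧ ∃ z ∈ Z, G.mu z = some a) ∨ G.mu c = some a := fun c a i j => by
    obtain ⟨-, y, -, k, m | ⟨rfl, -⟩⟩ := F.src i j
    · exact .inl ⟨m.mem.1, y, (mZ y).2 (.inr (.inl (List.mem_cons_of_mem _ m.mem.2))), k⟩
    · exact .inr k
  refine (sp_rsr (G := G) F.wf' hd (fun c a i j => (src c a i j).imp And.right (hp c a i)) hu2 v2
    (by omega)).bind ?_
  rintro p2 t10 ⟨b10, ⟨qa, qb, qc, qd, qe⟩ | ⟨mk, V, m, c⟩⟩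
  · have cq := pth_cl F.wf' hu2 qa
    refine sp_pure.2 ⟨⟨ov, F, pc, qa, qb, qc, fun k => ?_, s2.trans (by omega), ?_⟩, i, hi, _, i2, ?_⟩
    · have := qd u k; rw [v0_iff.2 rfl] at this; cases this
    · have := wsum_le (wt := wt) (B := Z) (List.nodup_cons.1 qb).2 fun x k => by
        obtain ⟨a, i, z, j, e⟩ := qe x k
        have cx := cq x (List.mem_cons_of_mem _ k)
        rcases src x a cx i with k | k
        · exact (mZ x).2 (.inr (.inl k.1))
        · exact hG.inj _ _ a cx (c2 z j) k e ▸ j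
      have := (hw _ (cq _ List.mem_cons_self)).2
      simp only [wsum, nds, List.map_cons, List.sum_cons] at *
      omega
    · simp only [List.length_cons] at b9
      omega
  exfalso
  have sub := tree_sub (tree_suffix h.tree x1) c (fun y k => h.dis y (x1.subset k))
    fun z k a e => (m a).2 ((src z a (cX z k) e).elim And.right
      fun e => ⟨z, (mZ z).2 (.inl k), e⟩)
  by_cases k : X.2 < nw
  · have eX := x4 k
    cases e : x.1 with
    | nil =>
      obtain ⟨A, C, d, i, j⟩ := closed_of F (cld_of h e)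
      have := hno A C d i
      have := tz e
      omega
    | cons f st =>
      have hf : f.1 ∈ x.2.1 := h.stk.sublist.subset (by simp [e])
      have := tc f st e (c.has _ (sub _ (eX ▸ hf)))
      have := cvol_le (G := flip G u ov) hd x.2.1
      rw [eX] at e3 x2
      omega
  · obtain ⟨d, d1, -, d3⟩ := closing F (fun z j a e => (m a).2 ⟨z, (mZ z).2 (.inr (.inl j)), e⟩) c
    obtain ⟨W, i, j⟩ := av (by omega) d d1
    obtain ⟨y, n, q⟩ := (a2 W i).1
    exact j (wlk_base c d3 q (.inl (sub y n)) fun z j a e =>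
      (m a).2 ⟨z, (mZ z).2 (.inr (.inr (List.mem_flatMap.2 ⟨W, i, j⟩))), e⟩)

end Crest.Agent.N325.On
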