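import Crest.Agent.N325.Dm.Dfs

/-!
# Row 325 (helper95): the open case, flipping the mates along a path
-/

set_option autoImplicit false
open Finset

namespace Crest.Agent.N325.On

open Crest.Agent.N325.Dm

/-- the classes of a path that ends in `r` -/
def nds (r : ℕ) (l : List (ℕ × ℕ)) : List ℕ := r :: l.map Prod.fst

/-- one step of the overlay -/
def ovS (p : ℕ × ℕ) (s : ℕ × Arr ℕ) : ℕ × Arr ℕ := (p.1, s.2.set s.1 (p.1 + 1))

/-- the overlay of a path -/
def ovp (r : ℕ) (l : List (ℕ × ℕ)) : R (Arr ℕ) :=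
  foldP ovS l (r, Arr.cst 0) >>= fun s => pure s.2

/-- `y` follows `x` on the path -/
def Lk : ℕ → List (ℕ × ℕ) → ℕ → ℕ → Prop
  | _, [], _, _ => False
  | r, p :: l, y, x => (y = r ∧ x = p.1) ∨ Lk p.1 l y x

theorem Lk.mem {r y x : ℕ} {l : List (ℕ × ℕ)} (h : Lk r l y x) :
    y ∈ nds r l ∧ x ∈ l.map Prod.fst := by
  induction l generalizing r with
  | nil => cases h
  | cons p l ih =>
    rcases h with ⟨rfl, rfl⟩ | h
    · simp [nds]
    · have := ih h
      simp only [nds, List.map_cons, List.mem_cons] at this ⊢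
      tauto

theorem fold_ov {r : ℕ} {l : List (ℕ × ℕ)} (nd : (nds r l).Nodup) (A : Arr ℕ) (y : ℕ) :
    (∀ x, Lk r l y x → (l.foldl (fun s p => ovS p s) (r, A)).2.get y = x + 1) ∧
    ((∀ x, ¬Lk r l y x) → (l.foldl (fun s p => ovS p s) (r, A)).2.get y = A.get y) := by
  induction l generalizing r A with
  | nil => exact ⟨fun _ h => h.elim, fun _ => rfl⟩
  | cons p l ih =>
    have nd' : r ∉ nds p.1 l ∧ (nds p.1 l).Nodup := List.nodup_cons.1 nd
    obtain ⟨a, b⟩ := ih nd'.2 (A.set r (p.1 + 1))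
    refine ⟨fun x h => ?_, fun h => ?_⟩
    · rcases h with ⟨rfl, rfl⟩ | h
      · exact (b fun x k => nd'.1 k.mem.1).trans (Arr.get_set_self ..)
      · exact a x h
    · exact (b fun x k => h x (.inr k)).trans
        (Arr.get_set_ne _ (fun e => h p.1 (.inl ⟨e, rfl⟩)) _)

theorem sp_ovp {g : Gl} {r : ℕ} {l : List (ℕ × ℕ)} (nd : (nds r l).Nodup) :
    Sp g (ovp r l) fun ov t => (∀ y x, ov.get y = x + 1 ↔ Lk r l y x) ∧ t = l.length + 1 := by
  refine (sp_foldP _ _ _).bind fun s t k => sp_pure.2 ⟨fun y x => ?_, k.2⟩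
  obtain ⟨a, b⟩ := fold_ov nd (Arr.cst 0) y
  rw [k.1]
  refine ⟨fun e => ?_, a x⟩
  by_cases c : ∃ x', Lk r l y x'
  · obtain ⟨x', c⟩ := c
    obtain rfl : x' = x := by have := a x' c; omega
    exact c
  · rw [b fun x k => c ⟨x, k⟩] at e; cases e

variable {G : Bg} {Cl : ℕ → Prop} {u r : ℕ} {l : List (ℕ × ℕ)} {ov : Arr ℕ}

theorem pth_cl (hG : G.WF Cl) (hu : Cl u) (h : G.Pth u r l) : ∀ c ∈ nds r l, Cl c := by
  induction h with
  | nil => simpa [nds] using hu
  | cons _ a ih =>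
    intro c hc
    rcases List.mem_cons.1 hc with rfl | hc
    · exact hG.cl _ _ (ih _ List.mem_cons_self) a.st
    · exact ih c hc

theorem pth_mem (h : G.Pth u r l) : u ∈ nds r l := by
  induction h with
  | nil => simp [nds]
  | cons _ _ ih => exact List.mem_cons_of_mem _ ih

theorem lk_st (h : G.Pth u r l) (nd : (nds r l).Nodup) {y x : ℕ} (k : Lk r l y x) :
    G.St x y ∧ y ≠ u ∧ (x = u ∨ ∃ z, Lk r l x z) := by
  induction h with
  | nil => cases k
  | @cons x' y' e l p a ih =>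
    have nd' : y' ∉ nds x' l ∧ (nds x' l).Nodup := List.nodup_cons.1 nd
    rcases k with ⟨rfl, rfl⟩ | k
    · refine ⟨a.st, fun e => nd'.1 (e ▸ pth_mem p), ?_⟩
      cases p with
      | nil => exact .inl rfl
      | cons => exact .inr ⟨_, .inr (.inl ⟨rfl, rfl⟩)⟩
    · obtain ⟨i, j, m⟩ := ih nd'.2 k
      exact ⟨i, j, m.imp_right fun ⟨z, m⟩ => ⟨z, .inr m⟩⟩

theorem lk_inj (nd : (nds r l).Nodup) {y y' x : ℕ} (k : Lk r l y x) (k' : Lk r l y' x) :
    y = y' := by
  induction l generalizing r with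
  | nil => cases k
  | cons p l ih =>
    have nd' : r ∉ nds p.1 l ∧ (nds p.1 l).Nodup := List.nodup_cons.1 nd
    have nd2 : p.1 ∉ l.map Prod.fst := (List.nodup_cons.1 nd'.2).1
    rcases k with ⟨rfl, rfl⟩ | k <;> rcases k' with ⟨rfl, e⟩ | k'
    · rfl
    · exact absurd k'.mem.2 nd2
    · exact absurd (e ▸ k.mem.2) nd2
    · exact ih nd'.2 k k'

/-- the last class of the path in a downward closed set -/
theorem ex_last (h : G.Pth u r l) {O : ℕ → Prop} (hu : O u)
    (dn : ∀ y x, Lk r l y x → O y → O x) : ∃ d ∈ nds r l, O d ∧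
      ∀ c ∈ nds r l, O c → c ≠ d → ∃ y, O y ∧ Lk r l y c := by
  have A : ∀ {r l}, (∀ y x, Lk r l y x → O y → O x) → O r →
      ∀ c ∈ l.map Prod.fst, ∃ y, O y ∧ Lk r l y c := by
    intro r l
    induction l generalizing r with
    | nil => intro _ _ c hc; cases hc
    | cons p l ih =>
      intro dn o c hc
      rcases List.mem_cons.1 hc with rfl | hc
      · exact ⟨r, o, .inl ⟨rfl, rfl⟩⟩
      · obtain ⟨y, a, b⟩ := ih (fun y x k => dn y x (.inr k)) (dn _ _ (.inl ⟨rfl, rfl⟩) o) c hc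
        exact ⟨y, a, .inr b⟩
  induction h with
  | nil => exact ⟨u, List.mem_cons_self, hu, fun c hc _ k => absurd (by simpa [nds] using hc) k⟩
  | @cons x y e l p a ih =>
    by_cases o : O y
    · exact ⟨y, List.mem_cons_self, o, fun c hc _ k =>
        A dn o c ((List.mem_cons.1 hc).resolve_left k)⟩
    · obtain ⟨d, a, b, k⟩ := ih fun y x k => dn y x (.inr k)
      refine ⟨d, List.mem_cons_of_mem _ a, b, fun c hc oc ne => ?_⟩
      rcases List.mem_cons.1 hc with rfl | hc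
      · exact absurd oc o
      · obtain ⟨y, i, j⟩ := k c hc oc ne
        exact ⟨y, i, .inr j⟩

/-- a simple path and its overlay -/
structure Flp (G : Bg) (Cl : ℕ → Prop) (u r : ℕ) (l : List (ℕ × ℕ)) (ov : Arr ℕ) : Prop where
  wf : G.WF Cl
  hu : Cl u
  pth : G.Pth u r l
  nd : (nds r l).Nodup
  ov : ∀ y x, ov.get y = x + 1 ↔ Lk r l y x

theorem flip_u : (flip G u ov).mu u = none := if_pos rfl

theorem Flp.mu_lk (h : Flp G Cl u r l ov) {y x : ℕ} (k : Lk r l y x) :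
    (flip G u ov).mu y = G.mu x := by
  have e := (h.ov y x).2 k
  change (if _ then _ else if _ then _ else _) = _
  rw [if_neg (lk_st h.pth h.nd k).2.1, e, if_neg (by omega), Nat.add_sub_cancel]

theorem Flp.mu_no (h : Flp G Cl u r l ov) {y : ℕ} (ne : y ≠ u) (k : ∀ x, ¬Lk r l y x) :
    (flip G u ov).mu y = G.mu y := by
  change (if _ then _ else if _ then _ else _) = _
  rw [if_neg ne, if_pos]
  by_contra c
  exact k (ov.get y - 1) ((h.ov _ _).1 (by omega))

theorem Flp.mu_off (h : Flp G Cl u r l ov) {y : ℕ} (k : y ∉ nds r l) :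
    (flip G u ov).mu y = G.mu y :=
  h.mu_no (fun e => k (e ▸ pth_mem h.pth)) fun _ c => k c.mem.1

/-- the old class of the new mate -/
theorem Flp.src (h : Flp G Cl u r l ov) {y a : ℕ} (hy : Cl y) (e : (flip G u ov).mu y = some a) :
    y ≠ u ∧ ∃ x, Cl x ∧ G.mu x = some a ∧ (Lk r l y x ∨ (x = y ∧ ∀ z, ¬Lk r l y z)) := by
  have ne : y ≠ u := fun k => by rw [k, flip_u] at e; cases e
  refine ⟨ne, ?_⟩
  by_cases c : ∃ x, Lk r l y x
  · obtain ⟨x, c⟩ := c
    exact ⟨x, pth_cl h.wf h.hu h.pth x (List.mem_cons_of_mem _ c.mem.2), h.mu_lk c ▸ e, .inl c⟩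
  · exact ⟨y, hy, h.mu_no ne (fun x k => c ⟨x, k⟩) ▸ e, .inr ⟨rfl, fun x k => c ⟨x, k⟩⟩⟩

theorem Flp.wf' (h : Flp G Cl u r l ov) : (flip G u ov).WF Cl := by
  refine ⟨fun c c' a hc hc' e e' => ?_, fun c a hc e => ?_, fun c c' hc ⟨a, e, k⟩ => ?_⟩
  · obtain ⟨n, x, i, j, k⟩ := h.src hc e
    obtain ⟨n', x', i', j', k'⟩ := h.src hc' e'
    obtain rfl := h.wf.inj _ _ _ i i' j j'
    rcases k with k | ⟨rfl, k⟩ <;> rcases k' with k' | ⟨q, k'⟩
    · exact lk_inj h.nd k k'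
    · subst q
      obtain ⟨z, m⟩ := (lk_st h.pth h.nd k).2.2.resolve_left n'
      exact absurd m (k' z)
    · obtain ⟨z, m⟩ := (lk_st h.pth h.nd k').2.2.resolve_left n
      exact absurd m (k z)
    · exact q
  · obtain ⟨-, x, i, j, k | ⟨rfl, -⟩⟩ := h.src hc e
    · obtain ⟨a', e', m⟩ := (lk_st h.pth h.nd k).1
      obtain rfl : a = a' := Option.some.inj (j.symm.trans e')
      exact m
    · exact h.wf.nb _ _ i j
  · obtain ⟨-, x, i, j, -⟩ := h.src hc e
    exact h.wf.cl x c' i ⟨a, j, k⟩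

end Crest.Agent.N325.On
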