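import Crest.Agent.N325.On.Defs
import Crest.Agent.N325.Dm.Impl

/-! # Row 325 (helper95): the open case is implementable -/

set_option autoImplicit false

namespace Crest.Agent.N325.On

open Crest.Agent.N325.Dm

variable {α : Type} [Rp α] {G G' : α → Bg}

theorem bgi_rs (h : BgI G) {mk : α → Arr Bool} {pt : α → ℕ → ℕ} (hm : Pu true mk)
    (hp : Pu true fun p : α × ℕ => pt p.1 p.2) : BgI fun a => rs (G a) (mk a) (pt a) := by
  obtain ⟨mu, adj, ok, hd, rfl, h1, h2, h3, h4⟩ := h.ex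
  refine ⟨h1, h2, ?_, h4⟩
  unfold rs; dsimp only; impl

@[fun_prop] theorem impl_ovp {r : α → ℕ} {l : α → List (ℕ × ℕ)} (h1 : Pu true r) (h2 : Pu true l) :
    Impl fun a => ovp (r a) (l a) := by
  unfold ovp ovS; impl

@[fun_prop] theorem impl_fin {s ν : α → ℕ} {x : α → Ds} (h1 : Pu true s) (h2 : Pu true ν)
    (h3 : Pu true x) : Impl fun a => fin (s a) (ν a) (x a) := by
  unfold fin; impl

theorem impl_rsr (h : BgI G) (h' : BgI G') {pt : α → ℕ → ℕ}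
    (hp : Pu true fun p : α × ℕ => pt p.1 p.2) :
    Impl fun p : α × List ℕ × Arr Bool × ℕ => rsr (G p.1) (G' p.1) (pt p.1) p.2.1 p.2.2.1 p.2.2.2 := by
  have hr : BgI fun p : α × Arr Bool => rs (G' p.1) p.2 (pt p.1) :=
    bgi_rs (h'.comp (by fun_prop)) (by fun_prop)
      (hp.comp (f := fun p : (α × Arr Bool) × ℕ => (p.1.1, p.2)) (by fun_prop))
  have h1 := impl_dfs hr
  have h2 := h.has
  have h3 := h.mt
  obtain ⟨d1, e1⟩ : ∃ d : α × Arr Bool → Arr Bool → ℕ → ℕ → R Ds,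
    ∀ a mk, dfs (rs (G' a) mk (pt a)) = d (a, mk) :=
    ⟨fun p => dfs (rs (G' p.1) p.2 (pt p.1)), fun _ _ => rfl⟩
  obtain ⟨d2, e2⟩ : ∃ d : α → ℕ → Bool, ∀ a, (G a).has = d a := ⟨_, fun _ => rfl⟩
  obtain ⟨d3, e3⟩ : ∃ d : α → ℕ → ℕ, ∀ a, (G a).mt = d a := ⟨_, fun _ => rfl⟩
  unfold rsr mk1
  simp only [e1, e2, e3] at h1 h2 h3 ⊢
  impl

theorem impl_pref {wt : α → ℕ → ℕ} (hw : Pu true fun p : α × ℕ => wt p.1 p.2) :
    Impl fun p : α × ℕ × List ℕ => pref (wt p.1) p.2.1 p.2.2 := by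
  unfold pref pf1; impl

theorem impl_opn {σ : Type} [Rp σ] (h : BgI G) {pt wt : α → ℕ → ℕ}
    {wk : α → List ℕ × List ℕ × σ → R (List (List ℕ) × σ)}
    (hp : Pu true fun p : α × ℕ => pt p.1 p.2) (hw : Pu true fun p : α × ℕ => wt p.1 p.2)
    (hk : Impl fun p : α × List ℕ × List ℕ × σ => wk p.1 p.2) :
    Impl fun p : α × ℕ × ℕ × ℕ × σ =>
      opn (G p.1) (pt p.1) (wt p.1) (wk p.1) p.2.1 p.2.2.1 p.2.2.2.1 p.2.2.2.2 := by
  have hf : BgI fun p : α × ℕ × Arr ℕ => flip (G p.1) p.2.1 p.2.2 :=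
    (h.comp (by fun_prop)).flip (by fun_prop) (by fun_prop)
  have h1 := impl_rsr h h hp
  have h2 := impl_rsr (h.comp (f := fun p : α × ℕ × Arr ℕ => p.1) (by fun_prop)) hf
    (pt := fun p => pt p.1)
    (hp.comp (f := fun p : (α × ℕ × Arr ℕ) × ℕ => (p.1.1, p.2)) (by fun_prop))
  have h3 := impl_dfs hf
  have h4 := impl_pref hw
  obtain ⟨d1, e1⟩ : ∃ d : α → List ℕ → Arr Bool → ℕ → R (ℕ × List (ℕ × ℕ)),
    ∀ a, rsr (G a) (G a) (pt a) = d a := ⟨_, fun _ => rfl⟩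
  obtain ⟨d2, e2⟩ : ∃ d : α × ℕ × Arr ℕ → List ℕ → Arr Bool → ℕ → R (ℕ × List (ℕ × ℕ)),
    ∀ a u ov, rsr (G a) (flip (G a) u ov) (pt a) = d (a, u, ov) :=
    ⟨fun p => rsr (G p.1) (flip (G p.1) p.2.1 p.2.2) (pt p.1), fun _ _ _ => rfl⟩
  obtain ⟨d3, e3⟩ : ∃ d : α × ℕ × Arr ℕ → Arr Bool → ℕ → ℕ → R Ds,
    ∀ a u ov, dfs (flip (G a) u ov) = d (a, u, ov) :=
    ⟨fun p => dfs (flip (G p.1) p.2.1 p.2.2), fun _ _ _ => rfl⟩
  obtain ⟨d4, e4⟩ : ∃ d : α → ℕ → List ℕ → R (List ℕ × ℕ), ∀ a, pref (wt a) = d a :=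
    ⟨_, fun _ => rfl⟩
  unfold opn
  simp only [e1, e2, e3, e4] at h1 h2 h3 h4 ⊢
  impl

end Crest.Agent.N325.On
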