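import Crest.Agent.N325.On.Defs

/-!
# Row 325 (helper95): the open case, restricted searches
-/

set_option autoImplicit false
open Finset

namespace Crest.Agent.N325.On

open Crest.Agent.N325.Dm

variable {g : Gl} {G G' : Bg} {Cl : ℕ → Prop} {s : ℕ}

theorem sp_chase0 {par : Arr (ℕ × ℕ)} {V : List ℕ} (ht : G.Tree s par.get V) {x : ℕ}
    (hx : x ∈ V) (acc : List (ℕ × ℕ)) {fu : ℕ} (hf : V.length ≤ fu) :
    Sp g (whileF (fun t => decide (t.1 ≠ s)) (fun t => pure (chStep par t)) fu (x, acc))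
      fun r t => ∃ l, G.Pth s x l ∧ (nds x l).Sublist V ∧ r.2 = l.reverse ++ acc ∧
        t = l.length + 1 := by
  induction V generalizing x acc fu with
  | nil => cases hx
  | cons z V ih =>
    obtain ⟨fu, rfl⟩ : ∃ k, fu = k + 1 := ⟨fu - 1, by simp at hf; omega⟩
    by_cases e : x = s
    · subst e
      refine ⟨Nat.zero_le _, ?_⟩
      rw [if_neg (by simp)]
      exact ⟨[], .nil, List.singleton_sublist.2 hx, rfl, rfl⟩
    rcases List.mem_cons.1 hx with rfl | hx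
    · obtain ⟨a, b⟩ := ht.1.resolve_left fun k => e k.1
      refine ⟨Nat.zero_le _, ?_⟩
      rw [if_pos (by simpa using e)]
      refine (ih ht.2 a (par.get x :: acc) (by simpa using hf)).mono ?_
      rintro r t ⟨l, p, q, k, rfl⟩
      exact ⟨par.get x :: l, .cons p b, q.cons_cons x, by simp [k], by simp; omega⟩
    · exact (ih ht.2 hx acc (fu := fu + 1) (by simp at hf; omega)).mono
        fun r t ⟨l, p, q, k⟩ => ⟨l, p, q.cons z, k⟩

theorem sp_chase' {par : Arr (ℕ × ℕ)} {V : List ℕ} (ht : G.Tree s par.get V) {x : ℕ}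
    (hx : x ∈ V) {fu : ℕ} (hf : V.length ≤ fu) :
    Sp g (chase par s x fu) fun l t => G.Pth s x l ∧ (nds x l).Sublist V ∧ t ≤ 2 * V.length := by
  refine (sp_chase0 ht hx [] hf).bind ?_
  rintro r t ⟨l, p, q, k, rfl⟩
  refine (sp_revL _).mono ?_
  rintro l' t' ⟨rfl, rfl⟩
  have := q.length_le
  simp only [nds, List.length_cons, List.length_map] at this
  rw [k]
  exact ⟨by simpa using p, by simpa using q, by simp; omega⟩

theorem fold_mk (Z : List ℕ) (A : Arr Bool) (a : ℕ) :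
    (Z.foldl (fun s c => mk1 G c s) A).get a = true ↔ A.get a = true ∨ ∃ c ∈ Z, G.mu c = some a := by
  induction Z generalizing A with
  | nil => simp
  | cons c Z ih =>
    rw [List.foldl_cons, ih, mk1]
    cases e : G.mu c with
    | none => simp [Bg.has_false.2 e, e]
    | some b =>
      rw [if_pos (Bg.has_iff.2 ⟨b, e⟩), Bg.mt_eq e, Arr.get_set]
      by_cases k : a = b
      · simp [k, e]
      · simp [k, e, Ne.symm k]

variable {mk : Arr Bool} {pt : ℕ → ℕ}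

theorem rs_nb {a c : ℕ} : (rs G mk pt).Nb a c ↔ G.Nb a c ∧ (mk.get a = true ∨ c = pt a) := by
  simp only [Bg.Nb, rs, Bool.and_eq_true, Bool.or_eq_true, decide_eq_true_eq]
  constructor
  · rintro ⟨e, i, ⟨j, k⟩, rfl⟩; exact ⟨⟨e, i, j, rfl⟩, k⟩
  · rintro ⟨⟨e, i, j, rfl⟩, k⟩; exact ⟨e, i, ⟨j, k⟩, rfl⟩

theorem rs_arc {p : ℕ × ℕ} {x : ℕ} (h : (rs G mk pt).Arc p x) : G.Arc p x := by
  obtain ⟨a, i, j, k, m⟩ := h
  exact ⟨a, i, j, (Bool.and_eq_true_iff.1 k).1, m⟩

theorem rs_pth {x : ℕ} {l : List (ℕ × ℕ)} (h : (rs G mk pt).Pth s x l) : G.Pth s x l := by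
  induction h with
  | nil => exact .nil
  | cons _ a ih => exact .cons ih (rs_arc a)

theorem rs_wf (hG : G.WF Cl) (hp : ∀ c a, Cl c → G.mu c = some a → mk.get a = true ∨ c = pt a) :
    (rs G mk pt).WF Cl :=
  ⟨hG.inj, fun c a i j => rs_nb.2 ⟨hG.nb c a i j, hp c a i j⟩,
    fun c c' i ⟨a, j, k⟩ => hG.cl c c' i ⟨a, j, (rs_nb.1 k).1⟩⟩

/-- an arc between different classes goes through a marked vertex -/
theorem rs_mk (hp : ∀ c a, Cl c → G.mu c = some a → mk.get a = true ∨ c = pt a) {x y : ℕ}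
    (hx : Cl x) (h : (rs G mk pt).St x y) (ne : y ≠ x) : ∃ a, G.mu x = some a ∧ G.Nb a y ∧
      mk.get a = true := by
  obtain ⟨a, i, j⟩ := h
  obtain ⟨k, m⟩ := rs_nb.1 j
  refine ⟨a, i, k, ?_⟩
  rcases m with m | m
  · exact m
  · exact (hp x a hx i).resolve_right fun q => ne (m.trans q.symm)

theorem pth_mk (hp : ∀ c a, Cl c → G.mu c = some a → mk.get a = true ∨ c = pt a) {y : ℕ}
    {l : List (ℕ × ℕ)} (p : (rs G mk pt).Pth s y l) (nd : (nds y l).Nodup)
    (cl : ∀ c ∈ nds y l, Cl c) : ∀ c ∈ l.map Prod.fst, ∃ a, G.mu c = some a ∧ mk.get a = true := by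
  induction p with
  | nil => intro _ m; cases m
  | @cons x' y' e' l' p' a' ih =>
    have nd' : y' ∉ nds x' l' ∧ (nds x' l').Nodup := List.nodup_cons.1 nd
    intro c m
    rcases List.mem_cons.1 m with rfl | m
    · obtain ⟨a, i, -, j⟩ := rs_mk hp (cl _ (by simp [nds])) a'.st
        fun z => nd'.1 (z ▸ List.mem_cons_self)
      exact ⟨a, i, j⟩
    · exact ih nd'.2 (fun c m => cl c (List.mem_cons_of_mem _ m)) c m

theorem tree_par {par : ℕ → ℕ × ℕ} {V : List ℕ} (ht : G.Tree s par V) (nd : V.Nodup) :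
    ∀ x ∈ V, x = s ∨ ∃ y ∈ V, x ≠ y ∧ G.St y x := by
  induction V with
  | nil => intro _ h; cases h
  | cons z V ih =>
    intro x hx
    rcases List.mem_cons.1 hx with rfl | hx
    · exact ht.1.imp And.left fun k => ⟨_, List.mem_cons_of_mem _ k.1,
        fun e => (List.nodup_cons.1 nd).1 (e ▸ k.1), k.2.st⟩
    · exact (ih ht.2 (List.nodup_cons.1 nd).2 x hx).imp_right fun ⟨y, a, b⟩ =>
        ⟨y, List.mem_cons_of_mem _ a, b⟩

theorem cvol_le (hd : ∀ a, (G.adj a).length ≤ 3) (V : List ℕ) : G.cvol V ≤ 4 * V.length := by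
  induction V with
  | nil => simp
  | cons x V ih =>
    have : (G.cadj x).length ≤ 3 := by
      unfold Bg.cadj; split
      · simp
      · exact hd _
    rw [Bg.cvol_cons, List.length_cons]; omega

/-- a search that closed -/
structure Cld (H : Bg) (Cl : ℕ → Prop) (v0 : Arr Bool) (s : ℕ) (V : List ℕ) : Prop where
  nd : V.Nodup
  mem : s ∈ V
  cl : ∀ y ∈ V, Cl y
  dis : ∀ y ∈ V, v0.get y = false
  has : ∀ y ∈ V, H.has y = true
  st : ∀ y ∈ V, ∀ c, H.St y c → c ∈ V ∨ v0.get c = true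

theorem cld_of {v0 : Arr Bool} {x : Ds} (h : Inv G Cl v0 s x) (e : x.1 = []) :
    Cld G Cl v0 s x.2.1 :=
  ⟨h.nd, h.stk.mem, h.cl, h.dis, fun y k => (h.has y k).resolve_right (by simp [e]),
    fun y k c m => (h.vis c).1 (h.fin y k (by simp [e]) c m)⟩

/-- **the restricted search** finds a root or closes -/
theorem sp_rsr (hG : G'.WF Cl) (hd : ∀ a, (G'.adj a).length ≤ 3) {Z : List ℕ} {v0 : Arr Bool}
    (hp : ∀ c a, Cl c → G'.mu c = some a → (∃ z ∈ Z, G.mu z = some a) ∨ c = pt a)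
    (hs : Cl s) (h0 : v0.get s = false) (hX : 12 * Z.length + 4 ≤ g.X) :
    Sp g (rsr G G' pt Z v0 s) fun r t => t ≤ 20 * Z.length + 10 ∧
      ((G'.Pth s r.1 r.2 ∧ (nds r.1 r.2).Nodup ∧ G'.mu r.1 = none ∧
        (∀ c ∈ nds r.1 r.2, v0.get c = false) ∧
        ∀ c ∈ r.2.map Prod.fst, ∃ a, G'.mu c = some a ∧ ∃ z ∈ Z, G.mu z = some a) ∨
      ∃ mk V, (∀ a, mk.get a = true ↔ ∃ z ∈ Z, G.mu z = some a) ∧ Cld (rs G' mk pt) Cl v0 s V) := by
  refine (sp_foldP _ _ _).bind fun mk t1 k1 => (sp_lenL _).bind fun n t2 k2 => ?_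
  obtain ⟨rfl, rfl⟩ := k2
  have hm : ∀ a, mk.get a = true ↔ ∃ z ∈ Z, G.mu z = some a := fun a => by
    rw [k1.1, fold_mk]; simp
  have hp' : ∀ c a, Cl c → G'.mu c = some a → mk.get a = true ∨ c = pt a := fun c a i j =>
    (hp c a i j).imp_left (hm a).2
  rw [k1.2, sp_bind, sp_nat]
  refine ⟨hX, (sp_dfs (rs_wf hG hp') hs h0).bind fun x t ⟨h, a, b, c⟩ => ?_⟩
  have hV : x.2.1.length ≤ 3 * Z.length + 1 := by
    have sub : x.2.1 ⊆ s :: (Z.filterMap G.mu).flatMap fun a => (G'.adj a).map (G'.hd a) := by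
      intro y hy
      rcases tree_par h.tree h.nd y hy with rfl | ⟨z, i, j, k⟩
      · exact List.mem_cons_self
      · obtain ⟨a, -, ⟨e, p, -, q⟩, m⟩ := rs_mk hp' (h.cl z i) k j
        obtain ⟨w, w1, w2⟩ := (hm a).1 m
        exact List.mem_cons_of_mem _ (List.mem_flatMap.2 ⟨a, List.mem_filterMap.2 ⟨w, w1, w2⟩,
          List.mem_map.2 ⟨e, p, q⟩⟩)
    refine (h.nd.subperm sub).length_le.trans ?_
    rw [List.length_cons, List.length_flatMap]
    have := List.sum_le_card_nsmul ((Z.filterMap G.mu).map fun a =>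
      ((G'.adj a).map (G'.hd a)).length) 3 (by
        intro v hv; obtain ⟨a, -, rfl⟩ := List.mem_map.1 hv; simpa using hd a)
    have := List.length_filterMap_le G.mu Z
    simp only [List.length_map, smul_eq_mul] at *
    omega
  have hT : x.2.2.2.2 ≤ 12 * Z.length + 4 := by
    obtain ⟨U, -, -, i, -⟩ := h.stk.all
    have := cvol_le (G := rs G' mk pt) hd x.2.1
    omega
  unfold fin
  split
  · rename_i e
    exact ⟨by omega, .inr ⟨mk, _, hm, cld_of h e⟩⟩
  · rename_i f st e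
    have hf : f.1 ∈ x.2.1 := h.stk.sublist.subset (by simp [e])
    refine (sp_chase' h.tree hf (by omega)).bind fun l t' ⟨p, q, k⟩ => sp_pure.2
      ⟨by omega, .inl ⟨rs_pth p, h.nd.sublist q, ?_, fun c m => h.dis c (q.subset m), ?_⟩⟩
    · have : (rs G' mk pt).has f.1 = false := by
        by_contra z
        have := c f st e (by simpa using z)
        omega
      exact Bg.has_false.1 this
    · intro c m
      obtain ⟨a, i, j⟩ := pth_mk hp' p (h.nd.sublist q) (fun c m => h.cl c (q.subset m)) c m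
      exact ⟨a, i, (hm a).1 j⟩

/-- **the prefix** -/
theorem sp_pref {wt : ℕ → ℕ} {nw wm : ℕ} {V : List ℕ} (hw : ∀ c ∈ V, wt c ≤ wm)
    (hX : nw + wm ≤ g.X) :
    Sp g (pref wt nw V) fun r t => r.1 <:+ V ∧ r.2 = wsum wt r.1 ∧ r.2 ≤ nw + wm ∧
      (r.2 < nw → r.1 = V) ∧ t ≤ 2 * V.length + 2 := by
  refine (sp_revL _).bind ?_
  rintro _ _ ⟨rfl, rfl⟩
  refine (sp_foldL' (fun l (r : List ℕ × ℕ) => l <:+ V.reverse ∧ r.1 <:+ V ∧ r.2 = wsum wt r.1 ∧
    r.2 ≤ nw + wm ∧ (r.2 < nw → l.reverse ++ r.1 = V)) (fun _ => 0) (fun c l r k => ?_)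
    (l := V.reverse) (s := ([], 0)) ⟨List.suffix_rfl, List.nil_suffix, rfl, by simp, by simp⟩).mono
    fun r t k => ⟨k.1.2.1, k.1.2.2.1, k.1.2.2.2.1, by simpa using k.1.2.2.2.2, by
      have := k.2; simp at this; omega⟩
  obtain ⟨k1, k2, k3, k4, k5⟩ := k
  have k1' := (List.suffix_cons c l).trans k1
  unfold pf1
  split_ifs with a
  · have e := k5 a
    have := hw c (List.mem_reverse.1 (k1.subset List.mem_cons_self))
    rw [List.reverse_cons, List.append_assoc] at e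
    rw [sp_bind, sp_nat, sp_pure]
    exact ⟨by omega, ⟨k1', ⟨_, e⟩, by simp [wsum, k3, add_comm], by dsimp only; omega,
      fun _ => e⟩, le_rfl⟩
  · exact ⟨⟨k1', k2, k3, k4, fun z => absurd z a⟩, le_rfl⟩

end Crest.Agent.N325.On
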